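import Vale.Agent.P116.KF.H903.Chi

/-!
# P116, block (E1), third part: gradient majorants

`Maj u κ`: the pointwise Lipschitz constant of `u` is at most `κ`. Along a C¹ path
`|u (γ b) - u (γ a)| ≤ ∫ κ(γ s) |γ' s| ds`.
-/

set_option linter.all false

open Set Filter Topology Metric MeasureTheory

namespace Vale.Agent.P116.KF.H903

noncomputable section

/-- the pointwise Lipschitz constant of `u` is at most `κ` -/
def Maj (u κ : ℂ → ℝ) : Prop :=
  ∀ z, ∀ ε > 0, ∀ᶠ w in 𝓝 z, |u w - u z| ≤ (κ z + ε) * ‖w - z‖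

lemma Maj.zero : Maj (fun _ => 0) (fun _ => 0) := by
  intro z ε hε
  refine Eventually.of_forall fun w => ?_
  rw [sub_self, abs_zero]
  positivity

lemma Maj.add {u v κ l : ℂ → ℝ} (h : Maj u κ) (h' : Maj v l) :
    Maj (fun z => u z + v z) (fun z => κ z + l z) := by
  intro z ε hε
  filter_upwards [h z (ε / 2) (half_pos hε), h' z (ε / 2) (half_pos hε)] with w h1 h2
  calc |u w + v w - (u z + v z)| = |(u w - u z) + (v w - v z)| := by ring_nf
    _ ≤ |u w - u z| + |v w - v z| := abs_add_le _ _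
    _ ≤ (κ z + ε / 2) * ‖w - z‖ + (l z + ε / 2) * ‖w - z‖ := add_le_add h1 h2
    _ = (κ z + l z + ε) * ‖w - z‖ := by ring

lemma Maj.sum {α : Type*} (s : Finset α) {u κ : α → ℂ → ℝ} (h : ∀ i ∈ s, Maj (u i) (κ i)) :
    Maj (fun z => ∑ i ∈ s, u i z) (fun z => ∑ i ∈ s, κ i z) := by
  classical
  induction s using Finset.induction_on with
  | empty => simpa using Maj.zero
  | insert i s hi ih =>
    simp only [Finset.sum_insert hi]
    exact (h i (Finset.mem_insert_self _ _)).add (ih fun j hj => h j (Finset.mem_insert_of_mem hj))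

lemma Maj.div {u κ : ℂ → ℝ} (h : Maj u κ) {c : ℝ} (hc : 0 < c) :
    Maj (fun z => u z / c) (fun z => κ z / c) := by
  intro z ε hε
  filter_upwards [h z (ε * c) (mul_pos hε hc)] with w h1
  rw [← sub_div, abs_div, abs_of_pos hc, div_le_iff₀ hc]
  refine h1.trans (le_of_eq ?_)
  field_simp

/-- translation -/
lemma Maj.sub {u κ : ℂ → ℝ} (h : Maj u κ) (p : ℂ) :
    Maj (fun z => u (z - p)) (fun z => κ (z - p)) := by
  intro z ε hε
  have h1 : Tendsto (fun w : ℂ => w - p) (𝓝 z) (𝓝 (z - p)) := (continuous_sub_right p).tendsto z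
  filter_upwards [h1.eventually (h (z - p) ε hε)] with w h2
  rwa [sub_sub_sub_cancel_right] at h2

/-- **the path form** -/
theorem Maj.path {u κ : ℂ → ℝ} (h : Maj u κ) (hκ : Continuous κ) (hκ0 : ∀ z, 0 ≤ κ z)
    {γ γ' : ℝ → ℂ} {a b : ℝ} (hab : a ≤ b)
    (hγ : ∀ s ∈ Icc a b, HasDerivWithinAt γ (γ' s) (Icc a b) s)
    (hγ' : ContinuousOn γ' (Icc a b)) :
    |u (γ b) - u (γ a)| ≤ ∫ s in a..b, κ (γ s) * ‖γ' s‖ := by
  have hγc : ContinuousOn γ (Icc a b) := fun s hs => (hγ s hs).continuousWithinAt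
  have huc : Continuous u := by
    refine continuous_iff_continuousAt.2 fun z => ?_
    rw [ContinuousAt, tendsto_iff_norm_sub_tendsto_zero]
    have h1 : Tendsto (fun w => (κ z + 1) * ‖w - z‖) (𝓝 z) (𝓝 0) := by
      have h2 : Tendsto (fun w : ℂ => ‖w - z‖) (𝓝 z) (𝓝 0) :=
        tendsto_iff_norm_sub_tendsto_zero.1 tendsto_id
      simpa using h2.const_mul (κ z + 1)
    exact squeeze_zero' (Eventually.of_forall fun _ => norm_nonneg _) (h z 1 one_pos) h1
  set g : ℝ → ℝ := fun s => κ (γ s) * ‖γ' s‖ with hg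
  have hgc : ContinuousOn g (Icc a b) := (hκ.comp_continuousOn hγc).mul hγ'.norm
  set G : ℝ → ℝ := IccExtend hab (restrict (Icc a b) g) with hG
  have hGc : Continuous G := (continuousOn_iff_continuous_restrict.1 hgc).Icc_extend'
  have hGg : ∀ s ∈ Icc a b, G s = g s := fun s hs => by
    rw [hG, IccExtend_of_mem hab _ hs]
    rfl
  -- one sided estimate
  have key : ∀ σ : ℝ, |σ| ≤ 1 → ∀ ε > 0,
      σ * (u (γ b) - u (γ a)) ≤ (∫ s in a..b, G s) + ε * (b - a) := by
    intro σ hσ ε hε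
    have hmain := image_le_of_liminf_slope_right_lt_deriv_boundary'
      (f := fun s => σ * (u (γ s) - u (γ a))) (f' := g) (a := a) (b := b)
      (B := fun x => (∫ s in a..x, G s) + ε * (x - a)) (B' := fun x => G x + ε)
      ?_ ?_ ?_ ?_ ?_ ?_
    · exact hmain (right_mem_Icc.2 hab)
    · exact continuousOn_const.mul ((huc.comp_continuousOn hγc).sub continuousOn_const)
    · intro x hx r hr
      -- slopes
      have hx' : x ∈ Icc a b := ⟨hx.1, hx.2.le⟩
      obtain ⟨η, hη, hηr⟩ : ∃ η > 0, (κ (γ x) + η) * (‖γ' x‖ + η) < r := by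
        have h1 : Tendsto (fun η : ℝ => (κ (γ x) + η) * (‖γ' x‖ + η)) (𝓝 0)
            (𝓝 ((κ (γ x) + 0) * (‖γ' x‖ + 0))) := by
          exact (tendsto_const_nhds.add tendsto_id).mul (tendsto_const_nhds.add tendsto_id)
        rw [add_zero, add_zero] at h1
        have h2 := h1.eventually (gt_mem_nhds hr)
        obtain ⟨δ, hδ, h3⟩ := Metric.eventually_nhds_iff.1 h2
        refine ⟨δ / 2, half_pos hδ, h3 ?_⟩
        rw [Real.dist_eq, sub_zero, abs_of_pos (half_pos hδ)]
        linarith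
      have hmem : Icc a b ∈ 𝓝[>] x :=
        mem_of_superset (Ioo_mem_nhdsGT hx.2) fun y hy => ⟨hx.1.trans hy.1.le, hy.2.le⟩
      have hd : HasDerivWithinAt γ (γ' x) (Ioi x) x := (hγ x hx').mono_of_mem_nhdsWithin hmem
      have h1 : ∀ᶠ z in 𝓝[>] x, ‖γ z - γ x‖ ≤ (‖γ' x‖ + η) * (z - x) := by
        have h2 := hd.isLittleO.def hη
        filter_upwards [h2, self_mem_nhdsWithin] with z h3 h4
        have h5 : 0 < z - x := sub_pos.2 h4
        have e : γ z - γ x = (γ z - γ x - (z - x) • γ' x) + (z - x) • γ' x := by abel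
        rw [e]
        refine (norm_add_le _ _).trans ?_
        rw [norm_smul, Real.norm_of_nonneg h5.le]
        have h6 : ‖γ z - γ x - (z - x) • γ' x‖ ≤ η * (z - x) := by
          have := h3
          simp only [Real.norm_of_nonneg h5.le] at this
          simpa using this
        nlinarith
      have h2 : ∀ᶠ z in 𝓝[>] x, |u (γ z) - u (γ x)| ≤ (κ (γ x) + η) * ‖γ z - γ x‖ := by
        have h3 : Tendsto γ (𝓝[>] x) (𝓝 (γ x)) := hd.continuousWithinAt
        exact h3.eventually (h (γ x) η hη)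
      refine Eventually.frequently ?_
      filter_upwards [h1, h2, self_mem_nhdsWithin] with z h3 h4 h5
      have h6 : 0 < z - x := sub_pos.2 h5
      rw [slope_def_field, div_lt_iff₀ h6]
      have e : σ * (u (γ z) - u (γ a)) - σ * (u (γ x) - u (γ a)) = σ * (u (γ z) - u (γ x)) := by
        ring
      rw [e]
      calc σ * (u (γ z) - u (γ x)) ≤ |σ * (u (γ z) - u (γ x))| := le_abs_self _
        _ = |σ| * |u (γ z) - u (γ x)| := abs_mul _ _
        _ ≤ 1 * |u (γ z) - u (γ x)| := by gcongr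
        _ = |u (γ z) - u (γ x)| := one_mul _
        _ ≤ (κ (γ x) + η) * ‖γ z - γ x‖ := h4
        _ ≤ (κ (γ x) + η) * ((‖γ' x‖ + η) * (z - x)) := by
            have := hκ0 (γ x)
            gcongr
        _ = ((κ (γ x) + η) * (‖γ' x‖ + η)) * (z - x) := by ring
        _ < r * (z - x) := by gcongr
    · simp
    · exact ((intervalIntegral.continuous_primitive (fun _ _ => hGc.intervalIntegrable _ _) a).add
        (by fun_prop)).continuousOn
    · intro x _
      have h1 : HasDerivAt (fun x => ∫ s in a..x, G s) (G x) x :=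
        intervalIntegral.integral_hasDerivAt_right (hGc.intervalIntegrable _ _)
          (hGc.stronglyMeasurableAtFilter _ _) hGc.continuousAt
      have h2 : HasDerivAt (fun x => ε * (x - a)) ε x := by
        simpa using ((hasDerivAt_id x).sub_const a).const_mul ε
      exact (h1.add h2).hasDerivWithinAt
    · intro x hx _
      show g x < G x + ε
      rw [hGg x ⟨hx.1, hx.2.le⟩]
      linarith
  have hint : (∫ s in a..b, G s) = ∫ s in a..b, κ (γ s) * ‖γ' s‖ := by
    refine intervalIntegral.integral_congr fun s hs => ?_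
    rw [uIcc_of_le hab] at hs
    exact hGg s hs
  rw [← hint]
  refine le_of_forall_pos_le_add fun ε hε => ?_
  have hb : 0 < b - a + 1 := by linarith
  have h1 := key 1 (by simp) (ε / (b - a + 1)) (div_pos hε hb)
  have h2 := key (-1) (by simp) (ε / (b - a + 1)) (div_pos hε hb)
  have h3 : ε / (b - a + 1) * (b - a) ≤ ε := by
    rw [div_mul_eq_mul_div, div_le_iff₀ hb]
    nlinarith
  rw [abs_le]
  constructor <;> linarith

/-- the segment form -/
theorem Maj.segment {u κ : ℂ → ℝ} (h : Maj u κ) (hκ : Continuous κ) (hκ0 : ∀ z, 0 ≤ κ z)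
    (w w' : ℂ) : |u w' - u w| ≤ ∫ s in (0:ℝ)..1, κ (w + s * (w' - w)) * ‖w' - w‖ := by
  have h1 := h.path hκ hκ0 (γ := fun s : ℝ => w + s * (w' - w)) (γ' := fun _ => w' - w)
    (a := 0) (b := 1) zero_le_one (fun s _ => by
      have h2 : HasDerivAt (fun s : ℝ => (s : ℂ)) 1 s := Complex.ofRealCLM.hasDerivAt
      have h3 := (h2.mul_const (w' - w)).const_add w
      rw [one_mul] at h3
      exact h3.hasDerivWithinAt) continuousOn_const
  simpa using h1

/-! ### the majorant of `psi t` -/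

/-- trapezoid, `1` on `[e⁻¹, 1]`, `0` off `(e⁻², e)` -/
def trap (s : ℝ) : ℝ :=
  max 0 (min 1 (min ((s - Real.exp (-2)) / (Real.exp (-1) - Real.exp (-2)))
    ((Real.exp 1 - s) / (Real.exp 1 - 1))))

lemma trap_nonneg (s : ℝ) : 0 ≤ trap s := le_max_left _ _

lemma trap_le_one (s : ℝ) : trap s ≤ 1 := max_le zero_le_one (min_le_left _ _)

lemma exp_facts : Real.exp (-2) < Real.exp (-1) ∧ 1 < Real.exp 1 ∧ Real.exp (-1) < 1 :=
  ⟨Real.exp_lt_exp.2 (by norm_num), Real.one_lt_exp_iff.2 one_pos,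
    Real.exp_lt_one_iff.2 (by norm_num)⟩

lemma trap_eq_one {s : ℝ} (h1 : Real.exp (-1) ≤ s) (h2 : s ≤ 1) : trap s = 1 := by
  obtain ⟨e1, e2, e3⟩ := exp_facts
  have h3 : 1 ≤ (s - Real.exp (-2)) / (Real.exp (-1) - Real.exp (-2)) := by
    rw [le_div_iff₀ (by linarith)]
    linarith
  have h4 : 1 ≤ (Real.exp 1 - s) / (Real.exp 1 - 1) := by
    rw [le_div_iff₀ (by linarith)]
    linarith
  rw [trap, min_eq_left (le_min h3 h4), max_eq_right zero_le_one]

lemma trap_eq_zero {s : ℝ} (h : s ≤ Real.exp (-2) ∨ Real.exp 1 ≤ s) : trap s = 0 := by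
  obtain ⟨e1, e2, e3⟩ := exp_facts
  rw [trap, max_eq_left]
  refine (min_le_right _ _).trans ?_
  rcases h with h | h
  · exact (min_le_left _ _).trans (div_nonpos_of_nonpos_of_nonneg (by linarith) (by linarith))
  · exact (min_le_right _ _).trans (div_nonpos_of_nonpos_of_nonneg (by linarith) (by linarith))

lemma continuous_trap : Continuous trap := by
  unfold trap
  fun_prop

/-- the gradient majorant of `psi t` -/
def kap (t : ℝ) (w : ℂ) : ℝ := Real.exp (t + 1) * trap (Real.exp t * ‖w‖)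

lemma kap_nonneg (t : ℝ) (w : ℂ) : 0 ≤ kap t w := mul_nonneg (Real.exp_pos _).le (trap_nonneg _)

lemma kap_le (t : ℝ) (w : ℂ) : kap t w ≤ Real.exp (t + 1) :=
  mul_le_of_le_one_right (Real.exp_pos _).le (trap_le_one _)

lemma continuous_kap (t : ℝ) : Continuous (kap t) :=
  continuous_const.mul (continuous_trap.comp (continuous_const.mul continuous_norm))

lemma kap_eq_zero_of_le {t : ℝ} {w : ℂ} (h : ‖w‖ ≤ Real.exp (-t - 2)) : kap t w = 0 := by
  rw [kap, trap_eq_zero (Or.inl ?_), mul_zero]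
  calc Real.exp t * ‖w‖ ≤ Real.exp t * Real.exp (-t - 2) := by gcongr
    _ = Real.exp (-2) := by rw [← Real.exp_add]; ring_nf

lemma kap_eq_zero_of_ge {t : ℝ} {w : ℂ} (h : Real.exp (-t + 1) ≤ ‖w‖) : kap t w = 0 := by
  rw [kap, trap_eq_zero (Or.inr ?_), mul_zero]
  calc Real.exp 1 = Real.exp t * Real.exp (-t + 1) := by rw [← Real.exp_add]; ring_nf
    _ ≤ Real.exp t * ‖w‖ := by gcongr

lemma kap_support {t : ℝ} {w : ℂ} (h : kap t w ≠ 0) :
    Real.exp (-t - 2) < ‖w‖ ∧ ‖w‖ < Real.exp (-t + 1) :=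
  ⟨not_le.1 fun h' => h (kap_eq_zero_of_le h'), not_le.1 fun h' => h (kap_eq_zero_of_ge h')⟩

lemma maj_psi (t : ℝ) : Maj (psi t) (kap t) := by
  intro z ε hε
  rcases lt_or_ge (Real.exp t * ‖z‖) (Real.exp (-1)) with h1 | h1
  · have hc : ∀ᶠ w : ℂ in 𝓝 z, Real.exp t * ‖w‖ < Real.exp (-1) :=
      (continuous_const.mul continuous_norm).continuousAt.eventually_lt_const h1
    filter_upwards [hc] with w hw
    have e : psi t w = psi t z := by
      rw [psi, psi, phi_eq_one hw.le, phi_eq_one h1.le]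
    rw [e, sub_self, abs_zero]
    have := kap_nonneg t z
    positivity
  · rcases lt_or_ge 1 (Real.exp t * ‖z‖) with h2 | h2
    · have hc : ∀ᶠ w : ℂ in 𝓝 z, 1 < Real.exp t * ‖w‖ :=
        (continuous_const.mul continuous_norm).continuousAt.eventually_const_lt h2
      filter_upwards [hc] with w hw
      have e : psi t w = psi t z := by
        rw [psi, psi, phi_eq_zero hw.le, phi_eq_zero h2.le]
      rw [e, sub_self, abs_zero]
      have := kap_nonneg t z
      positivity
    · refine Eventually.of_forall fun w => (abs_psi_sub_le t w z).trans ?_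
      rw [kap, trap_eq_one h1 h2, mul_one]
      gcongr
      linarith

/-- the gradient majorant of `chi N t` -/
def kapN (N : ℕ) (t : ℕ → ℝ) (w : ℂ) : ℝ := (∑ i ∈ Finset.range N, kap (t i) w) / N

variable {N : ℕ} {t : ℕ → ℝ}

lemma kapN_nonneg (w : ℂ) : 0 ≤ kapN N t w :=
  div_nonneg (Finset.sum_nonneg fun i _ => kap_nonneg _ _) (Nat.cast_nonneg _)

lemma continuous_kapN : Continuous (kapN N t) :=
  (continuous_finset_sum _ fun i _ => continuous_kap (t i)).div_const _

lemma kapN_le {T : ℝ} (hT : ∀ i < N, t i ≤ T) (w : ℂ) : kapN N t w ≤ Real.exp (T + 1) := by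
  rcases Nat.eq_zero_or_pos N with h | h
  · subst h
    simp only [kapN, Finset.range_zero, Finset.sum_empty, Nat.cast_zero, div_zero]
    positivity
  · have hN : (0:ℝ) < N := by exact_mod_cast h
    rw [kapN, div_le_iff₀ hN]
    calc ∑ i ∈ Finset.range N, kap (t i) w ≤ ∑ i ∈ Finset.range N, Real.exp (T + 1) := by
          refine Finset.sum_le_sum fun i hi => (kap_le _ _).trans (Real.exp_le_exp.2 ?_)
          linarith [hT i (Finset.mem_range.1 hi)]
      _ = Real.exp (T + 1) * N := by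
          rw [Finset.sum_const, Finset.card_range, nsmul_eq_mul]
          ring

/-- `kapN` vanishes outside the annuli -/
lemma kapN_eq_zero {w : ℂ} (h : ∀ i < N, Real.exp (-t i + 1) ≤ ‖w‖) : kapN N t w = 0 := by
  rw [kapN, Finset.sum_eq_zero fun i hi => kap_eq_zero_of_ge (h i (Finset.mem_range.1 hi)),
    zero_div]

theorem maj_chi : Maj (chi N t) (kapN N t) := by
  rcases Nat.eq_zero_or_pos N with h | h
  · subst h
    have e1 : chi 0 t = fun _ => 0 := by
      funext w
      simp [chi]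
    have e2 : kapN 0 t = fun _ => 0 := by
      funext w
      simp [kapN]
    rw [e1, e2]
    exact Maj.zero
  · exact (Maj.sum (Finset.range N) fun i _ => maj_psi (t i)).div (by exact_mod_cast h)

/-- the constant -/
def C1 : ℝ := Real.pi * Real.exp 4

lemma C1_pos : 0 < C1 := by unfold C1; positivity

lemma lintegral_kap (t : ℝ) : ∫⁻ w : ℂ, ENNReal.ofReal (kap t w ^ 2) ≤ ENNReal.ofReal C1 := by
  have h1 : ∀ w : ℂ, ENNReal.ofReal (kap t w ^ 2) ≤
      (closedBall (0:ℂ) (Real.exp (-t + 1))).indicator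
        (fun _ => ENNReal.ofReal (Real.exp (t + 1) ^ 2)) w := by
    intro w
    by_cases hw : w ∈ closedBall (0:ℂ) (Real.exp (-t + 1))
    · rw [indicator_of_mem hw]
      exact ENNReal.ofReal_le_ofReal (pow_le_pow_left₀ (kap_nonneg _ _) (kap_le _ _) 2)
    · rw [indicator_of_notMem hw]
      rw [mem_closedBall, dist_zero_right, not_le] at hw
      rw [kap_eq_zero_of_ge hw.le]
      simp
  refine (lintegral_mono h1).trans ?_
  rw [lintegral_indicator measurableSet_closedBall, setLIntegral_const, Complex.volume_closedBall]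
  have hpi : (NNReal.pi : ENNReal) = ENNReal.ofReal Real.pi := by
    rw [ENNReal.ofReal, ← NNReal.coe_real_pi, Real.toNNReal_coe]
  rw [hpi, ← ENNReal.ofReal_pow (Real.exp_pos _).le, ← ENNReal.ofReal_mul (by positivity),
    ← ENNReal.ofReal_mul (by positivity)]
  refine ENNReal.ofReal_le_ofReal (le_of_eq ?_)
  rw [C1, ← Real.exp_nat_mul, ← Real.exp_nat_mul]
  have : Real.exp ((2:ℕ) * (t + 1)) * Real.exp ((2:ℕ) * (-t + 1)) = Real.exp 4 := by
    rw [← Real.exp_add]
    push_cast
    ring_nf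
  calc Real.exp ((2:ℕ) * (t + 1)) * (Real.exp ((2:ℕ) * (-t + 1)) * Real.pi)
      = (Real.exp ((2:ℕ) * (t + 1)) * Real.exp ((2:ℕ) * (-t + 1))) * Real.pi := by ring
    _ = Real.pi * Real.exp 4 := by rw [this]; ring

/-- **the Dirichlet energy of the cutoff** -/
theorem lintegral_kapN (hN0 : 0 < N) (ht : ∀ i j, i < j → t i + 3 ≤ t j) :
    ∫⁻ w : ℂ, ENNReal.ofReal (kapN N t w ^ 2) ≤ ENNReal.ofReal (C1 / N) := by
  have hN : (0:ℝ) < N := by exact_mod_cast hN0
  have hsq : ∀ w : ℂ, kapN N t w ^ 2 = (∑ i ∈ Finset.range N, kap (t i) w ^ 2) / N ^ 2 := by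
    intro w
    rw [kapN, div_pow]
    congr 1
    have hact : ∀ k l, k < l → kap (t k) w ≠ 0 → kap (t l) w ≠ 0 → False := by
      intro k l hkl h1 h2
      have h3 := (kap_support h1).1
      have h4 := (kap_support h2).2
      have h5 := Real.exp_lt_exp.1 (h3.trans h4)
      linarith [ht k l hkl]
    by_cases h : ∃ k ∈ Finset.range N, kap (t k) w ≠ 0
    · obtain ⟨k, hk, hkne⟩ := h
      have h0 : ∀ l ∈ Finset.range N, l ≠ k → kap (t l) w = 0 := by
        intro l _ hlk
        by_contra hne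
        rcases lt_or_gt_of_ne hlk with h5 | h5
        · exact hact l k h5 hne hkne
        · exact hact k l h5 hkne hne
      rw [Finset.sum_eq_single_of_mem k hk h0, Finset.sum_eq_single_of_mem k hk]
      intro l hl hlk
      rw [h0 l hl hlk]
      norm_num
    · have h0 : ∀ l ∈ Finset.range N, kap (t l) w = 0 := by
        intro l hl
        by_contra hne
        exact h ⟨l, hl, hne⟩
      rw [Finset.sum_eq_zero h0, Finset.sum_eq_zero]
      · norm_num
      · intro l hl
        rw [h0 l hl]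
        norm_num
  have h1 : ∀ w : ℂ, ENNReal.ofReal (kapN N t w ^ 2) =
      ENNReal.ofReal (1 / N ^ 2) * ∑ i ∈ Finset.range N, ENNReal.ofReal (kap (t i) w ^ 2) := by
    intro w
    rw [hsq w, div_eq_mul_one_div, mul_comm, ENNReal.ofReal_mul (by positivity),
      ENNReal.ofReal_sum_of_nonneg fun i _ => sq_nonneg _]
  calc ∫⁻ w : ℂ, ENNReal.ofReal (kapN N t w ^ 2)
      = ∫⁻ w : ℂ, ENNReal.ofReal (1 / N ^ 2) *
          ∑ i ∈ Finset.range N, ENNReal.ofReal (kap (t i) w ^ 2) := lintegral_congr h1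
    _ = ENNReal.ofReal (1 / N ^ 2) *
          ∑ i ∈ Finset.range N, ∫⁻ w : ℂ, ENNReal.ofReal (kap (t i) w ^ 2) := by
        rw [lintegral_const_mul _ (Finset.measurable_sum _ fun i _ =>
          ((continuous_kap (t i)).measurable.pow_const 2).ennreal_ofReal),
          lintegral_finset_sum _ fun i _ =>
          ((continuous_kap (t i)).measurable.pow_const 2).ennreal_ofReal]
    _ ≤ ENNReal.ofReal (1 / N ^ 2) * ∑ i ∈ Finset.range N, ENNReal.ofReal C1 := by
        gcongr with i _
        exact lintegral_kap (t i)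
    _ = ENNReal.ofReal (C1 / N) := by
        rw [← ENNReal.ofReal_sum_of_nonneg fun i _ => C1_pos.le,
          ← ENNReal.ofReal_mul (by positivity)]
        congr 1
        rw [Finset.sum_const, Finset.card_range, nsmul_eq_mul]
        field_simp

end

end Vale.Agent.P116.KF.H903
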