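import Vale.Agent.P116.KF.H903.Cutoff

/-!
# P116, block (E1), second part: the averaged cutoff `chi N t`
-/

set_option linter.all false

open Set Filter Topology Metric MeasureTheory

namespace Vale.Agent.P116.KF.H903

noncomputable section

/-- the averaged cutoff -/
def chi (N : ℕ) (t : ℕ → ℝ) (w : ℂ) : ℝ := (∑ i ∈ Finset.range N, psi (t i) w) / N

variable {N : ℕ} {t : ℕ → ℝ}

lemma chi_nonneg (w : ℂ) : 0 ≤ chi N t w :=
  div_nonneg (Finset.sum_nonneg fun i _ => psi_nonneg _ _) (Nat.cast_nonneg _)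

lemma chi_le_one (w : ℂ) : chi N t w ≤ 1 := by
  rcases Nat.eq_zero_or_pos N with h | h
  · subst h
    simp [chi]
  · have hN : (0:ℝ) < N := by exact_mod_cast h
    rw [chi, div_le_one hN]
    calc ∑ i ∈ Finset.range N, psi (t i) w ≤ ∑ i ∈ Finset.range N, (1:ℝ) :=
          Finset.sum_le_sum fun i _ => psi_le_one _ _
      _ = N := by simp

lemma chi_eq_zero {w : ℂ} (h : ∀ i < N, Real.exp (-t i) ≤ ‖w‖) : chi N t w = 0 := by
  rw [chi, Finset.sum_eq_zero fun i hi => psi_eq_zero (h i (Finset.mem_range.1 hi)), zero_div]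

lemma chi_eq_one (hN : 0 < N) {w : ℂ} (h : ∀ i < N, ‖w‖ ≤ Real.exp (-t i - 1)) :
    chi N t w = 1 := by
  have hN' : (N:ℝ) ≠ 0 := by exact_mod_cast hN.ne'
  rw [chi, Finset.sum_congr rfl fun i hi => psi_eq_one (h i (Finset.mem_range.1 hi))]
  simp [hN']

lemma continuous_chi : Continuous (chi N t) :=
  (continuous_finset_sum _ fun i _ => continuous_psi (t i)).div_const _

lemma abs_chi_sub_le {T : ℝ} (hT : ∀ i < N, t i ≤ T) (w w' : ℂ) :
    |chi N t w - chi N t w'| ≤ Real.exp (T + 1) * ‖w - w'‖ := by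
  rcases Nat.eq_zero_or_pos N with h | h
  · subst h
    simp only [chi, Finset.range_zero, Finset.sum_empty, Nat.cast_zero, div_zero, sub_zero,
      abs_zero]
    positivity
  · have hN : (0:ℝ) < N := by exact_mod_cast h
    rw [chi, chi, ← sub_div, ← Finset.sum_sub_distrib, abs_div, abs_of_pos hN, div_le_iff₀ hN]
    calc |∑ i ∈ Finset.range N, (psi (t i) w - psi (t i) w')|
        ≤ ∑ i ∈ Finset.range N, |psi (t i) w - psi (t i) w'| := Finset.abs_sum_le_sum_abs _ _
      _ ≤ ∑ i ∈ Finset.range N, Real.exp (T + 1) * ‖w - w'‖ := by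
          refine Finset.sum_le_sum fun i hi => (abs_psi_sub_le _ _ _).trans ?_
          gcongr
          exact hT i (Finset.mem_range.1 hi)
      _ = Real.exp (T + 1) * ‖w - w'‖ * N := by
          rw [Finset.sum_const, Finset.card_range, nsmul_eq_mul]
          ring

/-! ### sums of squared oscillations -/

section sums

variable {ι : Type*} {s : Finset ι} {a : ι → ℂ} {r : ι → ℝ}

/-- always at most `C0` -/
theorem sum_chi (hr : ∀ i ∈ s, 0 ≤ r i)
    (hd : ∀ i ∈ s, ∀ j ∈ s, i ≠ j → Disjoint (closedBall (a i) (r i)) (closedBall (a j) (r j)))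
    (x y : ι → ℂ) (hx : ∀ i ∈ s, x i ∈ closedBall (a i) (r i))
    (hy : ∀ i ∈ s, y i ∈ closedBall (a i) (r i)) :
    ∑ i ∈ s, (chi N t (x i) - chi N t (y i)) ^ 2 ≤ C0 := by
  rcases Nat.eq_zero_or_pos N with h | h
  · subst h
    simp only [chi, Finset.range_zero, Finset.sum_empty, Nat.cast_zero, div_zero, sub_zero]
    simp [C0_pos.le]
  · have hN : (0:ℝ) < N := by exact_mod_cast h
    have hterm : ∀ i ∈ s, (chi N t (x i) - chi N t (y i)) ^ 2 ≤
        (∑ k ∈ Finset.range N, (psi (t k) (x i) - psi (t k) (y i)) ^ 2) / N := by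
      intro i _
      have e : chi N t (x i) - chi N t (y i) =
          (∑ k ∈ Finset.range N, (psi (t k) (x i) - psi (t k) (y i))) / N := by
        rw [chi, chi, ← sub_div, Finset.sum_sub_distrib]
      rw [e, div_pow, div_le_div_iff₀ (by positivity) hN]
      have h1 := sq_sum_le_card_mul_sum_sq (s := Finset.range N)
        (f := fun k => psi (t k) (x i) - psi (t k) (y i))
      rw [Finset.card_range] at h1
      calc (∑ k ∈ Finset.range N, (psi (t k) (x i) - psi (t k) (y i))) ^ 2 * N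
          ≤ (N * ∑ k ∈ Finset.range N, (psi (t k) (x i) - psi (t k) (y i)) ^ 2) * N := by gcongr
        _ = (∑ k ∈ Finset.range N, (psi (t k) (x i) - psi (t k) (y i)) ^ 2) * N ^ 2 := by ring
    calc ∑ i ∈ s, (chi N t (x i) - chi N t (y i)) ^ 2
        ≤ ∑ i ∈ s, (∑ k ∈ Finset.range N, (psi (t k) (x i) - psi (t k) (y i)) ^ 2) / N :=
          Finset.sum_le_sum hterm
      _ = (∑ k ∈ Finset.range N, ∑ i ∈ s, (psi (t k) (x i) - psi (t k) (y i)) ^ 2) / N := by
          rw [← Finset.sum_div, Finset.sum_comm]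
      _ ≤ (∑ k ∈ Finset.range N, C0) / N := by
          gcongr with k _
          exact sum_psi (t k) s a r hr hd x y hx hy
      _ = C0 := by
          rw [Finset.sum_const, Finset.card_range, nsmul_eq_mul]
          field_simp

/-- at most `C0 / N` if no disk meets two annuli -/
theorem sum_chi_good (hN0 : 0 < N) (ht : Monotone t) (hr : ∀ i ∈ s, 0 ≤ r i)
    (hd : ∀ i ∈ s, ∀ j ∈ s, i ≠ j → Disjoint (closedBall (a i) (r i)) (closedBall (a j) (r j)))
    (hgood : ∀ i ∈ s, ∀ k, k + 1 < N →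
      (∀ z ∈ closedBall (a i) (r i), ‖z‖ < Real.exp (-t k - 1)) ∨
      (∀ z ∈ closedBall (a i) (r i), Real.exp (-t (k + 1)) < ‖z‖))
    (x y : ι → ℂ) (hx : ∀ i ∈ s, x i ∈ closedBall (a i) (r i))
    (hy : ∀ i ∈ s, y i ∈ closedBall (a i) (r i)) :
    ∑ i ∈ s, (chi N t (x i) - chi N t (y i)) ^ 2 ≤ C0 / N := by
  have hN : (0:ℝ) < N := by exact_mod_cast hN0
  -- at most one annulus is active
  have hact : ∀ i ∈ s, ∀ k l, k < l → l < N → psi (t k) (x i) ≠ psi (t k) (y i) →
      psi (t l) (x i) ≠ psi (t l) (y i) → False := by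
    intro i hi k l hkl hl h1 h2
    rcases hgood i hi k (by omega) with h3 | h3
    · refine h1 ?_
      rw [psi_eq_one (h3 _ (hx i hi)).le, psi_eq_one (h3 _ (hy i hi)).le]
    · refine h2 ?_
      have h4 : Real.exp (-t l) ≤ Real.exp (-t (k + 1)) :=
        Real.exp_le_exp.2 (neg_le_neg (ht (by omega)))
      rw [psi_eq_zero (h4.trans (h3 _ (hx i hi)).le), psi_eq_zero (h4.trans (h3 _ (hy i hi)).le)]
  have hsq : ∀ i ∈ s, (∑ k ∈ Finset.range N, (psi (t k) (x i) - psi (t k) (y i))) ^ 2 =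
      ∑ k ∈ Finset.range N, (psi (t k) (x i) - psi (t k) (y i)) ^ 2 := by
    intro i hi
    by_cases h : ∃ k ∈ Finset.range N, psi (t k) (x i) ≠ psi (t k) (y i)
    · obtain ⟨k, hk, hkne⟩ := h
      have h0 : ∀ l ∈ Finset.range N, l ≠ k → psi (t l) (x i) - psi (t l) (y i) = 0 := by
        intro l hl hlk
        by_contra hne
        have hne' : psi (t l) (x i) ≠ psi (t l) (y i) := fun h => hne (sub_eq_zero.2 h)
        rcases lt_or_gt_of_ne hlk with h5 | h5
        · exact hact i hi l k h5 (Finset.mem_range.1 hk) hne' hkne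
        · exact hact i hi k l h5 (Finset.mem_range.1 hl) hkne hne'
      rw [Finset.sum_eq_single_of_mem k hk h0, Finset.sum_eq_single_of_mem k hk]
      intro l hl hlk
      rw [h0 l hl hlk]
      norm_num
    · have h0 : ∀ l ∈ Finset.range N, psi (t l) (x i) - psi (t l) (y i) = 0 := by
        intro l hl
        by_contra hne
        exact h ⟨l, hl, fun h => hne (sub_eq_zero.2 h)⟩
      rw [Finset.sum_eq_zero h0, Finset.sum_eq_zero]
      · norm_num
      · intro l hl
        rw [h0 l hl]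
        norm_num
  calc ∑ i ∈ s, (chi N t (x i) - chi N t (y i)) ^ 2
      = ∑ i ∈ s, (∑ k ∈ Finset.range N, (psi (t k) (x i) - psi (t k) (y i)) ^ 2) / N ^ 2 := by
        refine Finset.sum_congr rfl fun i hi => ?_
        rw [← hsq i hi, ← div_pow, chi, chi, ← sub_div, Finset.sum_sub_distrib]
    _ = (∑ k ∈ Finset.range N, ∑ i ∈ s, (psi (t k) (x i) - psi (t k) (y i)) ^ 2) / N ^ 2 := by
        rw [← Finset.sum_div, Finset.sum_comm]
    _ ≤ (∑ k ∈ Finset.range N, C0) / N ^ 2 := by
        gcongr with k _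
        exact sum_psi (t k) s a r hr hd x y hx hy
    _ = C0 / N := by
        rw [Finset.sum_const, Finset.card_range, nsmul_eq_mul]
        field_simp

/-- the oscillation of a continuous function on a closed disk is attained -/
lemma exists_diam {f : ℂ → ℝ} (hf : Continuous f) (c : ℂ) {ρ : ℝ} (hρ : 0 ≤ ρ) :
    ∃ x ∈ closedBall c ρ, ∃ y ∈ closedBall c ρ, diam (f '' closedBall c ρ) = f x - f y := by
  have hc : IsCompact (f '' closedBall c ρ) := (isCompact_closedBall c ρ).image hf
  have hne : (f '' closedBall c ρ).Nonempty := (nonempty_closedBall.2 hρ).image f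
  obtain ⟨x, hx, hx'⟩ := hc.sSup_mem hne
  obtain ⟨y, hy, hy'⟩ := hc.sInf_mem hne
  exact ⟨x, hx, y, hy, by rw [Real.diam_eq hc.isBounded, hx', hy']⟩

/-- diameters, for the cutoff centred at `p` -/
theorem sum_diam_chi (p : ℂ) (hr : ∀ i ∈ s, 0 ≤ r i)
    (hd : ∀ i ∈ s, ∀ j ∈ s, i ≠ j → Disjoint (closedBall (a i) (r i)) (closedBall (a j) (r j))) :
    ∑ i ∈ s, diam ((fun w => chi N t (w - p)) '' closedBall (a i) (r i)) ^ 2 ≤ C0 := by
  have hf : Continuous fun w => chi N t (w - p) := continuous_chi.comp (continuous_sub_right p)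
  have h1 : ∀ i ∈ s, ∃ x ∈ closedBall (a i) (r i), ∃ y ∈ closedBall (a i) (r i),
      diam ((fun w => chi N t (w - p)) '' closedBall (a i) (r i)) =
        chi N t (x - p) - chi N t (y - p) := fun i hi => exists_diam hf (a i) (hr i hi)
  choose! x hx y hy hxy using h1
  have hm : ∀ i z, z ∈ closedBall (a i) (r i) → z - p ∈ closedBall (a i - p) (r i) := by
    intro i z hz
    rw [mem_closedBall, dist_eq_norm] at hz ⊢
    rwa [sub_sub_sub_cancel_right]
  rw [Finset.sum_congr rfl fun i hi => by rw [hxy i hi]]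
  refine sum_chi (a := fun i => a i - p) (r := r) hr ?_ (fun i => x i - p) (fun i => y i - p)
    (fun i hi => hm i _ (hx i hi)) (fun i hi => hm i _ (hy i hi))
  intro i hi j hj hij
  rw [disjoint_left]
  intro z hz hz'
  have h2 : ∀ k, z ∈ closedBall (a k - p) (r k) → z + p ∈ closedBall (a k) (r k) := by
    intro k hk
    rw [mem_closedBall, dist_eq_norm] at hk ⊢
    rwa [show z + p - a k = z - (a k - p) by ring]
  exact disjoint_left.1 (hd i hi j hj hij) (h2 i hz) (h2 j hz')

/-- diameters, for the cutoff centred at `p`, if no disk meets two annuli -/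
theorem sum_diam_chi_good (hN0 : 0 < N) (ht : Monotone t) (p : ℂ) (hr : ∀ i ∈ s, 0 ≤ r i)
    (hd : ∀ i ∈ s, ∀ j ∈ s, i ≠ j → Disjoint (closedBall (a i) (r i)) (closedBall (a j) (r j)))
    (hgood : ∀ i ∈ s, ∀ k, k + 1 < N →
      (∀ z ∈ closedBall (a i) (r i), ‖z - p‖ < Real.exp (-t k - 1)) ∨
      (∀ z ∈ closedBall (a i) (r i), Real.exp (-t (k + 1)) < ‖z - p‖)) :
    ∑ i ∈ s, diam ((fun w => chi N t (w - p)) '' closedBall (a i) (r i)) ^ 2 ≤ C0 / N := by
  have hf : Continuous fun w => chi N t (w - p) := continuous_chi.comp (continuous_sub_right p)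
  have h1 : ∀ i ∈ s, ∃ x ∈ closedBall (a i) (r i), ∃ y ∈ closedBall (a i) (r i),
      diam ((fun w => chi N t (w - p)) '' closedBall (a i) (r i)) =
        chi N t (x - p) - chi N t (y - p) := fun i hi => exists_diam hf (a i) (hr i hi)
  choose! x hx y hy hxy using h1
  have hm : ∀ i z, z ∈ closedBall (a i) (r i) → z - p ∈ closedBall (a i - p) (r i) := by
    intro i z hz
    rw [mem_closedBall, dist_eq_norm] at hz ⊢
    rwa [sub_sub_sub_cancel_right]
  have h2 : ∀ k z, z ∈ closedBall (a k - p) (r k) → z + p ∈ closedBall (a k) (r k) := by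
    intro k z hk
    rw [mem_closedBall, dist_eq_norm] at hk ⊢
    rwa [show z + p - a k = z - (a k - p) by ring]
  rw [Finset.sum_congr rfl fun i hi => by rw [hxy i hi]]
  refine sum_chi_good (a := fun i => a i - p) (r := r) hN0 ht hr ?_ ?_ (fun i => x i - p)
    (fun i => y i - p) (fun i hi => hm i _ (hx i hi)) (fun i hi => hm i _ (hy i hi))
  · intro i hi j hj hij
    rw [disjoint_left]
    intro z hz hz'
    exact disjoint_left.1 (hd i hi j hj hij) (h2 i z hz) (h2 j z hz')
  · intro i hi k hk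
    refine (hgood i hi k hk).imp (fun h z hz => ?_) (fun h z hz => ?_)
    · have := h _ (h2 i z hz)
      rwa [add_sub_cancel_right] at this
    · have := h _ (h2 i z hz)
      rwa [add_sub_cancel_right] at this

end sums

end

end Vale.Agent.P116.KF.H903
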