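import Mathlib

/-!
# P116, block (E1): logarithmic cutoffs and families of disjoint disks

`psi t w = clip (log (1/|w|) - t)`, `chi N t = (1/N) ∑_{i<N} psi (t i)`.
* sums of squared oscillations over disjoint disks are at most `C0 = 36 e²`, and at most `C0 / N`
  for `chi N t` if no disk meets two of the annuli;
* `chi` has the continuous gradient majorant `kap`, with `∫ kap² ≤ C1 / N`.
-/

set_option linter.all false

open Set Filter Topology Metric MeasureTheory

namespace Vale.Agent.P116.KF.H903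

noncomputable section

/-- the profile -/
def phi (s : ℝ) : ℝ := max 0 (-Real.log (max s (Real.exp (-1))))

lemma phi_nonneg (s : ℝ) : 0 ≤ phi s := le_max_left _ _

lemma phi_le_one (s : ℝ) : phi s ≤ 1 := by
  refine max_le zero_le_one ?_
  have h1 : Real.log (Real.exp (-1)) ≤ Real.log (max s (Real.exp (-1))) :=
    Real.log_le_log (Real.exp_pos _) (le_max_right _ _)
  rw [Real.log_exp] at h1
  linarith

lemma phi_eq_one {s : ℝ} (h : s ≤ Real.exp (-1)) : phi s = 1 := by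
  rw [phi, max_eq_right h, Real.log_exp]
  norm_num

lemma phi_eq_zero {s : ℝ} (h : 1 ≤ s) : phi s = 0 := by
  rw [phi, max_eq_left]
  have h1 : 0 ≤ Real.log (max s (Real.exp (-1))) := Real.log_nonneg (h.trans (le_max_left _ _))
  linarith

lemma lt_one_of_phi {s : ℝ} (h : phi s ≠ 0) : s < 1 := by
  by_contra hs
  exact h (phi_eq_zero (not_lt.1 hs))

lemma lt_of_phi_ne_one {s : ℝ} (h : phi s ≠ 1) : Real.exp (-1) < s := by
  by_contra hs
  exact h (phi_eq_one (not_lt.1 hs))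

lemma phi_anti {s s' : ℝ} (h : s ≤ s') : phi s' ≤ phi s := by
  refine max_le_max le_rfl (neg_le_neg ?_)
  exact Real.log_le_log ((Real.exp_pos _).trans_le (le_max_right _ _)) (max_le_max h le_rfl)

lemma phi_sub_le {s s' : ℝ} (h : s ≤ s') : phi s - phi s' ≤ Real.exp 1 * (s' - s) := by
  set a := max s' (Real.exp (-1)) with ha
  set b := max s (Real.exp (-1)) with hb
  have hb0 : 0 < b := (Real.exp_pos _).trans_le (le_max_right _ _)
  have hba : b ≤ a := max_le_max h le_rfl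
  have ha0 : 0 < a := hb0.trans_le hba
  have h1 : phi s - phi s' ≤ Real.log a - Real.log b := by
    have h2 : phi s = max 0 (-Real.log b) := rfl
    have h3 : phi s' = max 0 (-Real.log a) := rfl
    rw [h2, h3]
    have h4 : Real.log b ≤ Real.log a := Real.log_le_log hb0 hba
    rcases le_total 0 (-Real.log b) with h5 | h5
    · rw [max_eq_right h5]
      linarith [le_max_right 0 (-Real.log a)]
    · rw [max_eq_left h5]
      linarith [le_max_left 0 (-Real.log a)]
  have h2 : Real.log a - Real.log b ≤ (a - b) / b := by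
    rw [← Real.log_div ha0.ne' hb0.ne']
    have := Real.log_le_sub_one_of_pos (div_pos ha0 hb0)
    refine this.trans (le_of_eq ?_)
    field_simp
  have h3 : (a - b) / b ≤ Real.exp 1 * (a - b) := by
    rw [div_eq_mul_inv, mul_comm]
    refine mul_le_mul_of_nonneg_right ?_ (by linarith)
    rw [inv_le_comm₀ hb0 (Real.exp_pos _), ← Real.exp_neg]
    exact le_max_right _ _
  have h4 : a - b ≤ s' - s := by
    rw [ha, hb]
    rcases le_total s' (Real.exp (-1)) with h5 | h5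
    · rw [max_eq_right h5, max_eq_right (h.trans h5)]
      linarith
    · rw [max_eq_left h5]
      linarith [le_max_left s (Real.exp (-1))]
  have := Real.exp_pos 1
  nlinarith

lemma abs_phi_sub_le (s s' : ℝ) : |phi s - phi s'| ≤ Real.exp 1 * |s - s'| := by
  rcases le_total s s' with h | h
  · rw [abs_of_nonneg (by linarith [phi_anti h]), abs_sub_comm, abs_of_nonneg (by linarith)]
    exact phi_sub_le h
  · rw [abs_sub_comm, abs_of_nonneg (by linarith [phi_anti h]), abs_of_nonneg (by linarith)]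
    exact phi_sub_le h

/-- the logarithmic cutoff at scale `t` -/
def psi (t : ℝ) (w : ℂ) : ℝ := phi (Real.exp t * ‖w‖)

lemma psi_nonneg (t : ℝ) (w : ℂ) : 0 ≤ psi t w := phi_nonneg _
lemma psi_le_one (t : ℝ) (w : ℂ) : psi t w ≤ 1 := phi_le_one _

lemma psi_eq_one {t : ℝ} {w : ℂ} (h : ‖w‖ ≤ Real.exp (-t - 1)) : psi t w = 1 := by
  refine phi_eq_one ?_
  calc Real.exp t * ‖w‖ ≤ Real.exp t * Real.exp (-t - 1) := by gcongr
    _ = Real.exp (-1) := by rw [← Real.exp_add]; ring_nf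

lemma psi_eq_zero {t : ℝ} {w : ℂ} (h : Real.exp (-t) ≤ ‖w‖) : psi t w = 0 := by
  refine phi_eq_zero ?_
  calc (1 : ℝ) = Real.exp t * Real.exp (-t) := by rw [← Real.exp_add]; simp
    _ ≤ Real.exp t * ‖w‖ := by gcongr

lemma norm_lt_of_psi {t : ℝ} {w : ℂ} (h : psi t w ≠ 0) : ‖w‖ < Real.exp (-t) := by
  by_contra hs
  exact h (psi_eq_zero (not_lt.1 hs))

lemma lt_norm_of_psi {t : ℝ} {w : ℂ} (h : psi t w ≠ 1) : Real.exp (-t - 1) < ‖w‖ := by
  by_contra hs
  exact h (psi_eq_one (not_lt.1 hs))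

lemma abs_psi_sub_le (t : ℝ) (w w' : ℂ) :
    |psi t w - psi t w'| ≤ Real.exp (t + 1) * ‖w - w'‖ := by
  refine (abs_phi_sub_le _ _).trans ?_
  rw [← mul_sub, abs_mul, abs_of_pos (Real.exp_pos t), ← mul_assoc, ← Real.exp_add,
    add_comm 1 t]
  exact mul_le_mul_of_nonneg_left (abs_norm_sub_norm_le w w') (Real.exp_pos _).le

lemma continuous_psi (t : ℝ) : Continuous (psi t) := by
  refine (LipschitzWith.of_dist_le_mul (K := ⟨Real.exp (t + 1), (Real.exp_pos _).le⟩)
    fun w w' => ?_).continuous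
  rw [Real.dist_eq, dist_eq_norm]
  exact abs_psi_sub_le t w w'

/-! ### disjoint disks -/

/-- area: disjoint disks inside a disk -/
lemma sum_sq_le {ι : Type*} (s : Finset ι) (a : ι → ℂ) (r : ι → ℝ) (hr : ∀ i ∈ s, 0 ≤ r i)
    (hd : ∀ i ∈ s, ∀ j ∈ s, i ≠ j → Disjoint (closedBall (a i) (r i)) (closedBall (a j) (r j)))
    {R : ℝ} (hR : 0 ≤ R) (hsub : ∀ i ∈ s, closedBall (a i) (r i) ⊆ closedBall 0 R) :
    ∑ i ∈ s, r i ^ 2 ≤ R ^ 2 := by
  have h1 : volume (⋃ i ∈ s, closedBall (a i) (r i)) = ∑ i ∈ s, volume (closedBall (a i) (r i)) :=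
    measure_biUnion_finset (fun i hi j hj hij => hd i hi j hj hij)
      fun i _ => measurableSet_closedBall
  have h2 : volume (⋃ i ∈ s, closedBall (a i) (r i)) ≤ volume (closedBall (0:ℂ) R) :=
    measure_mono (iUnion₂_subset hsub)
  rw [h1] at h2
  simp only [Complex.volume_closedBall] at h2
  have h3 : ∑ i ∈ s, ENNReal.ofReal (r i) ^ 2 * (NNReal.pi : ENNReal) =
      ENNReal.ofReal (∑ i ∈ s, r i ^ 2) * NNReal.pi := by
    rw [ENNReal.ofReal_sum_of_nonneg (fun i _ => sq_nonneg _), Finset.sum_mul]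
    refine Finset.sum_congr rfl fun i hi => ?_
    rw [ENNReal.ofReal_pow (hr i hi)]
  rw [h3, ← ENNReal.ofReal_pow hR] at h2
  have h4 := (ENNReal.mul_le_mul_iff_left (by simp [NNReal.pi_ne_zero]) (by simp)).1 h2
  exact (ENNReal.ofReal_le_ofReal_iff (sq_nonneg _)).1 h4

/-- the constant -/
def C0 : ℝ := 36 * Real.exp 1 ^ 2

lemma C0_pos : 0 < C0 := by unfold C0; positivity

lemma sub_disk {a x : ℂ} {r : ℝ} (hr : 0 ≤ r) (hx : x ∈ closedBall a r) (hx1 : ‖x‖ < 1) :
    ∃ c : ℂ, closedBall c (min r 1) ⊆ closedBall a r ∧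
      closedBall c (min r 1) ⊆ closedBall 0 3 := by
  have key : ∀ c : ℂ, ‖x - c‖ ≤ 1 → closedBall c (min r 1) ⊆ closedBall 0 3 := by
    intro c hc y hy
    rw [mem_closedBall, dist_eq_norm] at hy
    rw [mem_closedBall, dist_zero_right]
    have h1 : ‖y - c‖ ≤ 1 := hy.trans (min_le_right _ _)
    have e : y = (y - c) - (x - c) + x := by ring
    calc ‖y‖ = ‖(y - c) - (x - c) + x‖ := by rw [← e]
      _ ≤ ‖(y - c) - (x - c)‖ + ‖x‖ := norm_add_le _ _
      _ ≤ ‖y - c‖ + ‖x - c‖ + ‖x‖ := by gcongr; exact norm_sub_le _ _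
      _ ≤ 3 := by linarith
  rw [mem_closedBall, dist_eq_norm] at hx
  by_cases h : ‖x - a‖ ≤ 1
  · exact ⟨a, closedBall_subset_closedBall (min_le_left _ _), key a h⟩
  · have h := not_le.1 h
    have hr1 : 1 < r := h.trans_le hx
    have hpos : 0 < ‖x - a‖ := by linarith
    refine ⟨x - ((‖x - a‖⁻¹ : ℝ) : ℂ) * (x - a), ?_, key _ ?_⟩
    · intro y hy
      rw [min_eq_right hr1.le, mem_closedBall, dist_eq_norm] at hy
      rw [mem_closedBall, dist_eq_norm]
      have h2 : ‖(x - ((‖x - a‖⁻¹ : ℝ) : ℂ) * (x - a)) - a‖ = ‖x - a‖ - 1 := by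
        have e : (x - ((‖x - a‖⁻¹ : ℝ) : ℂ) * (x - a)) - a =
            ((1 - ‖x - a‖⁻¹ : ℝ) : ℂ) * (x - a) := by push_cast; ring
        rw [e, norm_mul, Complex.norm_real, Real.norm_of_nonneg, sub_mul, one_mul,
          inv_mul_cancel₀ hpos.ne']
        have : ‖x - a‖⁻¹ ≤ 1 := inv_le_one_of_one_le₀ h.le
        linarith
      have e : y - a = (y - (x - ((‖x - a‖⁻¹ : ℝ) : ℂ) * (x - a))) +
          ((x - ((‖x - a‖⁻¹ : ℝ) : ℂ) * (x - a)) - a) := by ring
      rw [e]
      refine (norm_add_le _ _).trans ?_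
      rw [h2]
      linarith
    · have e : x - (x - ((‖x - a‖⁻¹ : ℝ) : ℂ) * (x - a)) = ((‖x - a‖⁻¹ : ℝ) : ℂ) * (x - a) := by
        ring
      rw [e, norm_mul, Complex.norm_real, Real.norm_of_nonneg (by positivity),
        inv_mul_cancel₀ hpos.ne']

/-- **one annulus**, scale `0` -/
lemma sum_psi0 {ι : Type*} (s : Finset ι) (a : ι → ℂ) (r : ι → ℝ) (hr : ∀ i ∈ s, 0 ≤ r i)
    (hd : ∀ i ∈ s, ∀ j ∈ s, i ≠ j → Disjoint (closedBall (a i) (r i)) (closedBall (a j) (r j)))
    (x y : ι → ℂ) (hx : ∀ i ∈ s, x i ∈ closedBall (a i) (r i))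
    (hy : ∀ i ∈ s, y i ∈ closedBall (a i) (r i)) :
    ∑ i ∈ s, (psi 0 (x i) - psi 0 (y i)) ^ 2 ≤ C0 := by
  classical
  set s' := s.filter fun i => psi 0 (x i) ≠ psi 0 (y i) with hs'
  have hsum : ∑ i ∈ s, (psi 0 (x i) - psi 0 (y i)) ^ 2 =
      ∑ i ∈ s', (psi 0 (x i) - psi 0 (y i)) ^ 2 := by
    refine (Finset.sum_subset (Finset.filter_subset _ _) fun i hi hi' => ?_).symm
    have : psi 0 (x i) = psi 0 (y i) := by
      by_contra h
      exact hi' (Finset.mem_filter.2 ⟨hi, h⟩)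
    rw [this, sub_self]
    norm_num
  rw [hsum]
  have hsub : ∀ i ∈ s', ∃ c : ℂ, closedBall c (min (r i) 1) ⊆ closedBall (a i) (r i) ∧
      closedBall c (min (r i) 1) ⊆ closedBall 0 3 := by
    intro i hi
    obtain ⟨his, hne⟩ := Finset.mem_filter.1 hi
    by_cases h : psi 0 (x i) = 0
    · have h2 : psi 0 (y i) ≠ 0 := fun h' => hne (h.trans h'.symm)
      have h3 := norm_lt_of_psi h2
      rw [neg_zero, Real.exp_zero] at h3
      exact sub_disk (hr i his) (hy i his) h3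
    · have h3 := norm_lt_of_psi h
      rw [neg_zero, Real.exp_zero] at h3
      exact sub_disk (hr i his) (hx i his) h3
  choose! c hc1 hc2 using hsub
  have hterm : ∀ i ∈ s', (psi 0 (x i) - psi 0 (y i)) ^ 2 ≤
      4 * Real.exp 1 ^ 2 * (min (r i) 1) ^ 2 := by
    intro i hi
    obtain ⟨his, hne⟩ := Finset.mem_filter.1 hi
    rcases le_total (r i) 1 with h | h
    · rw [min_eq_left h]
      have h1 := abs_psi_sub_le 0 (x i) (y i)
      rw [zero_add] at h1
      have h2 : ‖x i - y i‖ ≤ 2 * r i := by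
        have h3 := hx i his
        have h4 := hy i his
        rw [mem_closedBall] at h3 h4
        rw [← dist_eq_norm]
        have := dist_triangle_right (x i) (y i) (a i)
        linarith
      have h3 : |psi 0 (x i) - psi 0 (y i)| ≤ 2 * Real.exp 1 * r i := by
        refine h1.trans ?_
        have := Real.exp_pos 1
        nlinarith
      calc (psi 0 (x i) - psi 0 (y i)) ^ 2 = |psi 0 (x i) - psi 0 (y i)| ^ 2 := (sq_abs _).symm
        _ ≤ (2 * Real.exp 1 * r i) ^ 2 := pow_le_pow_left₀ (abs_nonneg _) h3 2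
        _ = 4 * Real.exp 1 ^ 2 * r i ^ 2 := by ring
    · rw [min_eq_right h]
      have h1 : |psi 0 (x i) - psi 0 (y i)| ≤ 1 := by
        rw [abs_le]
        constructor <;>
          linarith [psi_nonneg 0 (x i), psi_nonneg 0 (y i), psi_le_one 0 (x i), psi_le_one 0 (y i)]
      have h2 : (1 : ℝ) ≤ Real.exp 1 := Real.one_le_exp zero_le_one
      calc (psi 0 (x i) - psi 0 (y i)) ^ 2 = |psi 0 (x i) - psi 0 (y i)| ^ 2 := (sq_abs _).symm
        _ ≤ 1 ^ 2 := pow_le_pow_left₀ (abs_nonneg _) h1 2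
        _ ≤ 4 * Real.exp 1 ^ 2 * 1 ^ 2 := by nlinarith
  have harea := sum_sq_le s' c (fun i => min (r i) 1)
    (fun i hi => le_min (hr i (Finset.mem_filter.1 hi).1) zero_le_one)
    (fun i hi j hj hij => (hd i (Finset.mem_filter.1 hi).1 j (Finset.mem_filter.1 hj).1 hij).mono
      (hc1 i hi) (hc1 j hj)) (by norm_num : (0:ℝ) ≤ 3) hc2
  calc ∑ i ∈ s', (psi 0 (x i) - psi 0 (y i)) ^ 2
      ≤ ∑ i ∈ s', 4 * Real.exp 1 ^ 2 * (min (r i) 1) ^ 2 := Finset.sum_le_sum hterm
    _ = 4 * Real.exp 1 ^ 2 * ∑ i ∈ s', (min (r i) 1) ^ 2 := by rw [Finset.mul_sum]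
    _ ≤ 4 * Real.exp 1 ^ 2 * 3 ^ 2 := by gcongr
    _ = C0 := by unfold C0; ring

lemma psi_scale (t : ℝ) (w : ℂ) : psi t w = psi 0 ((Real.exp t : ℂ) * w) := by
  unfold psi
  rw [Real.exp_zero, one_mul, norm_mul, Complex.norm_real,
    Real.norm_of_nonneg (Real.exp_pos _).le]

/-- **one annulus**: the sum of the squared oscillations of `psi t` over disjoint disks -/
theorem sum_psi {ι : Type*} (t : ℝ) (s : Finset ι) (a : ι → ℂ) (r : ι → ℝ)
    (hr : ∀ i ∈ s, 0 ≤ r i)
    (hd : ∀ i ∈ s, ∀ j ∈ s, i ≠ j → Disjoint (closedBall (a i) (r i)) (closedBall (a j) (r j)))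
    (x y : ι → ℂ) (hx : ∀ i ∈ s, x i ∈ closedBall (a i) (r i))
    (hy : ∀ i ∈ s, y i ∈ closedBall (a i) (r i)) :
    ∑ i ∈ s, (psi t (x i) - psi t (y i)) ^ 2 ≤ C0 := by
  simp only [psi_scale t]
  have hm : ∀ (i : ι) (z : ℂ), z ∈ closedBall (a i) (r i) ↔
      (Real.exp t : ℂ) * z ∈ closedBall ((Real.exp t : ℂ) * a i) (Real.exp t * r i) := by
    intro i z
    rw [mem_closedBall, mem_closedBall, dist_eq_norm, dist_eq_norm, ← mul_sub, norm_mul,
      Complex.norm_real, Real.norm_of_nonneg (Real.exp_pos _).le]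
    exact (mul_le_mul_iff_right₀ (Real.exp_pos t)).symm
  refine sum_psi0 s (fun i => (Real.exp t : ℂ) * a i) (fun i => Real.exp t * r i)
    (fun i hi => mul_nonneg (Real.exp_pos _).le (hr i hi)) ?_ _ _
    (fun i hi => (hm i _).1 (hx i hi)) (fun i hi => (hm i _).1 (hy i hi))
  intro i hi j hj hij
  rw [disjoint_left]
  intro z hz hz'
  have e : z = (Real.exp t : ℂ) * ((Real.exp t : ℂ)⁻¹ * z) := by
    rw [← mul_assoc, mul_inv_cancel₀, one_mul]
    exact Complex.ofReal_ne_zero.2 (Real.exp_pos _).ne'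
  rw [e] at hz hz'
  exact disjoint_left.1 (hd i hi j hj hij) ((hm i _).2 hz) ((hm j _).2 hz')

end

end Vale.Agent.P116.KF.H903
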